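import Mathlib
import Vale.Agent.Lib.P302.helper26.Th215.Base

/-!
# P302: pieces of the mask search of the 215-item instance (part 0)
-/

namespace Vale.Agent.Lib.P302.helper26.Th215

open Vale.Agent.Lib.P302.helper14 Vale.Agent.Lib.P302.helper8

theorem ok_lay0 : stepOKS rows cap lay0 lay1 = true := by decide +kernel

theorem ok_lay1 : stepOKS rows cap lay1 lay2 = true := by decide +kernel

theorem ok_lay2 : stepOKS rows cap lay2 lay3 = true := by decide +kernel

theorem ok_lay3 : stepOKS rows cap lay3 lay4 = true := by decide +kernel

theorem ok_p4_0 : stepOKS rows cap p4_0 lay5 = true := by decide +kernel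

theorem ok_p4_1 : stepOKS rows cap p4_1 lay5 = true := by decide +kernel

theorem ok_p5_0 : stepOKS rows cap p5_0 lay6 = true := by decide +kernel

theorem ok_p5_1 : stepOKS rows cap p5_1 lay6 = true := by decide +kernel

theorem ok_p5_2 : stepOKS rows cap p5_2 lay6 = true := by decide +kernel

theorem ok_p5_3 : stepOKS rows cap p5_3 lay6 = true := by decide +kernel

theorem ok_p6_0 : stepOKS rows cap p6_0 lay7 = true := by decide +kernel

theorem ok_p6_1 : stepOKS rows cap p6_1 lay7 = true := by decide +kernel

theorem ok_p6_2 : stepOKS rows cap p6_2 lay7 = true := by decide +kernel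

theorem ok_p6_3 : stepOKS rows cap p6_3 lay7 = true := by decide +kernel

theorem ok_p6_4 : stepOKS rows cap p6_4 lay7 = true := by decide +kernel

theorem ok_p6_5 : stepOKS rows cap p6_5 lay7 = true := by decide +kernel

theorem ok_p7_0 : stepOKS rows cap p7_0 lay8 = true := by decide +kernel

theorem ok_p7_1 : stepOKS rows cap p7_1 lay8 = true := by decide +kernel

end Vale.Agent.Lib.P302.helper26.Th215
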