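import Mathlib
import Vale.Agent.Lib.P302.helper26.Th215.Base

/-!
# P302: pieces of the mask search of the 215-item instance (part 1)
-/

namespace Vale.Agent.Lib.P302.helper26.Th215

open Vale.Agent.Lib.P302.helper14 Vale.Agent.Lib.P302.helper8

theorem ok_p7_2 : stepOKS rows cap p7_2 lay8 = true := by decide +kernel

theorem ok_p7_3 : stepOKS rows cap p7_3 lay8 = true := by decide +kernel

theorem ok_p7_4 : stepOKS rows cap p7_4 lay8 = true := by decide +kernel

theorem ok_p7_5 : stepOKS rows cap p7_5 lay8 = true := by decide +kernel

theorem ok_p7_6 : stepOKS rows cap p7_6 lay8 = true := by decide +kernel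

theorem ok_p7_7 : stepOKS rows cap p7_7 lay8 = true := by decide +kernel

theorem ok_p8_0 : stepOKS rows cap p8_0 lay9 = true := by decide +kernel

theorem ok_p8_1 : stepOKS rows cap p8_1 lay9 = true := by decide +kernel

theorem ok_p8_2 : stepOKS rows cap p8_2 lay9 = true := by decide +kernel

theorem ok_p8_3 : stepOKS rows cap p8_3 lay9 = true := by decide +kernel

theorem ok_p8_4 : stepOKS rows cap p8_4 lay9 = true := by decide +kernel

theorem ok_p8_5 : stepOKS rows cap p8_5 lay9 = true := by decide +kernel

theorem ok_p8_6 : stepOKS rows cap p8_6 lay9 = true := by decide +kernel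

theorem ok_p8_7 : stepOKS rows cap p8_7 lay9 = true := by decide +kernel

theorem ok_p9_0 : stepOKS rows cap p9_0 lay10 = true := by decide +kernel

theorem ok_p9_1 : stepOKS rows cap p9_1 lay10 = true := by decide +kernel

end Vale.Agent.Lib.P302.helper26.Th215
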