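import Mathlib
import Vale.Agent.Lib.P302.helper26.Th215.Base

/-!
# P302: pieces of the mask search of the 215-item instance (part 2)
-/

namespace Vale.Agent.Lib.P302.helper26.Th215

open Vale.Agent.Lib.P302.helper14 Vale.Agent.Lib.P302.helper8

theorem ok_p9_2 : stepOKS rows cap p9_2 lay10 = true := by decide +kernel

theorem ok_p9_3 : stepOKS rows cap p9_3 lay10 = true := by decide +kernel

theorem ok_p9_4 : stepOKS rows cap p9_4 lay10 = true := by decide +kernel

theorem ok_p9_5 : stepOKS rows cap p9_5 lay10 = true := by decide +kernel

theorem ok_p9_6 : stepOKS rows cap p9_6 lay10 = true := by decide +kernel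

theorem ok_p9_7 : stepOKS rows cap p9_7 lay10 = true := by decide +kernel

theorem ok_p9_8 : stepOKS rows cap p9_8 lay10 = true := by decide +kernel

theorem ok_p10_0 : stepOKS rows cap p10_0 lay11 = true := by decide +kernel

theorem ok_p10_1 : stepOKS rows cap p10_1 lay11 = true := by decide +kernel

theorem ok_p10_2 : stepOKS rows cap p10_2 lay11 = true := by decide +kernel

theorem ok_p10_3 : stepOKS rows cap p10_3 lay11 = true := by decide +kernel

theorem ok_p10_4 : stepOKS rows cap p10_4 lay11 = true := by decide +kernel

theorem ok_p10_5 : stepOKS rows cap p10_5 lay11 = true := by decide +kernel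

theorem ok_p10_6 : stepOKS rows cap p10_6 lay11 = true := by decide +kernel

theorem ok_p10_7 : stepOKS rows cap p10_7 lay11 = true := by decide +kernel

theorem ok_p10_8 : stepOKS rows cap p10_8 lay11 = true := by decide +kernel

end Vale.Agent.Lib.P302.helper26.Th215
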