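import Mathlib
import Vale.Agent.Lib.P302.helper26.Th215.Base
import Vale.Agent.Lib.P302.helper26.Th215.K0

/-!
# P302: pieces of the mask search of the 215-item instance (part 3)
-/

namespace Vale.Agent.Lib.P302.helper26.Th215

open Vale.Agent.Lib.P302.helper14 Vale.Agent.Lib.P302.helper8

theorem ok_p11_0 : stepOKS rows cap p11_0 lay12 = true := by decide +kernel

theorem ok_p11_1 : stepOKS rows cap p11_1 lay12 = true := by decide +kernel

theorem ok_p11_2 : stepOKS rows cap p11_2 lay12 = true := by decide +kernel

theorem ok_p11_3 : stepOKS rows cap p11_3 lay12 = true := by decide +kernel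

theorem ok_p11_4 : stepOKS rows cap p11_4 lay12 = true := by decide +kernel

theorem ok_p11_5 : stepOKS rows cap p11_5 lay12 = true := by decide +kernel

theorem ok_p11_6 : stepOKS rows cap p11_6 lay12 = true := by decide +kernel

theorem ok_p11_7 : stepOKS rows cap p11_7 lay12 = true := by decide +kernel

theorem ok_p11_8 : stepOKS rows cap p11_8 lay12 = true := by decide +kernel

theorem ok_p12_0 : stepOKS rows cap p12_0 lay13 = true := by decide +kernel

theorem ok_p12_1 : stepOKS rows cap p12_1 lay13 = true := by decide +kernel

theorem ok_p12_2 : stepOKS rows cap p12_2 lay13 = true := by decide +kernel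

theorem ok_p12_3 : stepOKS rows cap p12_3 lay13 = true := by decide +kernel

theorem ok_p12_4 : stepOKS rows cap p12_4 lay13 = true := by decide +kernel

theorem ok_p12_5 : stepOKS rows cap p12_5 lay13 = true := by decide +kernel

theorem ok_p13_0 : stepOKS rows cap p13_0 lay14 = true := by decide +kernel

end Vale.Agent.Lib.P302.helper26.Th215
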