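import Mathlib
import Vale.Agent.Lib.P302.helper26.Th215.Base
import Vale.Agent.Lib.P302.helper26.Th215.K1

/-!
# P302: pieces of the mask search of the 215-item instance (part 4)
-/

namespace Vale.Agent.Lib.P302.helper26.Th215

open Vale.Agent.Lib.P302.helper14 Vale.Agent.Lib.P302.helper8

theorem ok_p13_1 : stepOKS rows cap p13_1 lay14 = true := by decide +kernel

theorem ok_p13_2 : stepOKS rows cap p13_2 lay14 = true := by decide +kernel

theorem ok_p13_3 : stepOKS rows cap p13_3 lay14 = true := by decide +kernel

theorem ok_p14_0 : stepOKS rows cap p14_0 lay15 = true := by decide +kernel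

theorem ok_p14_1 : stepOKS rows cap p14_1 lay15 = true := by decide +kernel

theorem ok_p14_2 : stepOKS rows cap p14_2 lay15 = true := by decide +kernel

theorem ok_p15_0 : stepOKS rows cap p15_0 lay16 = true := by decide +kernel

theorem ok_p15_1 : stepOKS rows cap p15_1 lay16 = true := by decide +kernel

theorem ok_p15_2 : stepOKS rows cap p15_2 lay16 = true := by decide +kernel

theorem ok_p16_0 : stepOKS rows cap p16_0 lay17 = true := by decide +kernel

theorem ok_p16_1 : stepOKS rows cap p16_1 lay17 = true := by decide +kernel

theorem ok_p16_2 : stepOKS rows cap p16_2 lay17 = true := by decide +kernel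

theorem ok_p17_0 : stepOKS rows cap p17_0 lay18 = true := by decide +kernel

theorem ok_p17_1 : stepOKS rows cap p17_1 lay18 = true := by decide +kernel

theorem ok_p17_2 : stepOKS rows cap p17_2 lay18 = true := by decide +kernel

theorem ok_p18_0 : stepOKS rows cap p18_0 lay19 = true := by decide +kernel

end Vale.Agent.Lib.P302.helper26.Th215
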