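import Mathlib
import Vale.Agent.Lib.P302.helper26.Th215.Base
import Vale.Agent.Lib.P302.helper26.Th215.K2

/-!
# P302: pieces of the mask search of the 215-item instance (part 5)
-/

namespace Vale.Agent.Lib.P302.helper26.Th215

open Vale.Agent.Lib.P302.helper14 Vale.Agent.Lib.P302.helper8

theorem ok_p18_1 : stepOKS rows cap p18_1 lay19 = true := by decide +kernel

theorem ok_p18_2 : stepOKS rows cap p18_2 lay19 = true := by decide +kernel

theorem ok_p19_0 : stepOKS rows cap p19_0 lay20 = true := by decide +kernel

theorem ok_p19_1 : stepOKS rows cap p19_1 lay20 = true := by decide +kernel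

theorem ok_p19_2 : stepOKS rows cap p19_2 lay20 = true := by decide +kernel

theorem ok_p20_0 : stepOKS rows cap p20_0 lay21 = true := by decide +kernel

theorem ok_p20_1 : stepOKS rows cap p20_1 lay21 = true := by decide +kernel

theorem ok_lay21 : stepOKS rows cap lay21 lay22 = true := by decide +kernel

theorem ok_lay22 : stepOKS rows cap lay22 lay23 = true := by decide +kernel

theorem ok_lay23 : stepOKS rows cap lay23 lay24 = true := by decide +kernel

theorem ok_lay24 : stepOKS rows cap lay24 lay25 = true := by decide +kernel

theorem ok_lay25 : stepOKS rows cap lay25 lay26 = true := by decide +kernel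

theorem ok_lay26 : stepOKS rows cap lay26 lay27 = true := by decide +kernel

theorem ok_lay27 : stepOKS rows cap lay27 lay28 = true := by decide +kernel

theorem ok_lay28 : stepOKS rows cap lay28 lay29 = true := by decide +kernel

theorem ok_lay29 : stepOKS rows cap lay29 lay30 = true := by decide +kernel

theorem ok_lay30 : stepOKS rows cap lay30 lay31 = true := by decide +kernel

theorem ok_lay31 : stepOKS rows cap lay31 lay32 = true := by decide +kernel

theorem ok_lay32 : stepOKS rows cap lay32 lay33 = true := by decide +kernel

theorem ok_lay33 : stepOKS rows cap lay33 lay34 = true := by decide +kernel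

theorem ok_lay34 : stepOKS rows cap lay34 lay35 = true := by decide +kernel

theorem ok_lay35 : stepOKS rows cap lay35 lay36 = true := by decide +kernel

theorem ok_lay36 : stepOKS rows cap lay36 lay37 = true := by decide +kernel

theorem ok_lay37 : stepOKS rows cap lay37 lay38 = true := by decide +kernel

theorem ok_lay38 : stepOKS rows cap lay38 lay39 = true := by decide +kernel

theorem ok_lay39 : stepOKS rows cap lay39 lay40 = true := by decide +kernel

end Vale.Agent.Lib.P302.helper26.Th215
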