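import Mathlib
import Vale.Agent.Lib.P302.helper26.Th215.Base
import Vale.Agent.Lib.P302.helper26.Th215.K3

/-!
# P302: pieces of the mask search of the 215-item instance (part 6)
-/

namespace Vale.Agent.Lib.P302.helper26.Th215

open Vale.Agent.Lib.P302.helper14 Vale.Agent.Lib.P302.helper8

theorem ok_p40_0 : stepOKS rows cap p40_0 lay41 = true := by decide +kernel

theorem ok_p40_1 : stepOKS rows cap p40_1 lay41 = true := by decide +kernel

theorem ok_p41_0 : stepOKS rows cap p41_0 lay42 = true := by decide +kernel

theorem ok_p41_1 : stepOKS rows cap p41_1 lay42 = true := by decide +kernel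

theorem ok_p42_0 : stepOKS rows cap p42_0 lay43 = true := by decide +kernel

theorem ok_p42_1 : stepOKS rows cap p42_1 lay43 = true := by decide +kernel

theorem ok_p43_0 : stepOKS rows cap p43_0 lay44 = true := by decide +kernel

theorem ok_p43_1 : stepOKS rows cap p43_1 lay44 = true := by decide +kernel

theorem ok_p44_0 : stepOKS rows cap p44_0 lay45 = true := by decide +kernel

theorem ok_p44_1 : stepOKS rows cap p44_1 lay45 = true := by decide +kernel

theorem ok_p45_0 : stepOKS rows cap p45_0 lay46 = true := by decide +kernel

theorem ok_p45_1 : stepOKS rows cap p45_1 lay46 = true := by decide +kernel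

theorem ok_lay46 : stepOKS rows cap lay46 lay47 = true := by decide +kernel

theorem ok_lay47 : stepOKS rows cap lay47 lay48 = true := by decide +kernel

theorem ok_lay48 : stepOKS rows cap lay48 lay49 = true := by decide +kernel

theorem ok_lay49 : stepOKS rows cap lay49 lay50 = true := by decide +kernel

theorem ok_lay50 : stepOKS rows cap lay50 lay51 = true := by decide +kernel

theorem ok_lay51 : stepOKS rows cap lay51 lay52 = true := by decide +kernel

theorem ok_lay52 : stepOKS rows cap lay52 lay53 = true := by decide +kernel

theorem ok_lay53 : stepOKS rows cap lay53 lay54 = true := by decide +kernel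

theorem ok_lay54 : stepOKS rows cap lay54 lay55 = true := by decide +kernel

theorem ok_lay55 : stepOKS rows cap lay55 lay56 = true := by decide +kernel

theorem ok_lay56 : stepOKS rows cap lay56 lay57 = true := by decide +kernel

theorem ok_lay57 : stepOKS rows cap lay57 lay58 = true := by decide +kernel

theorem ok_lay58 : stepOKS rows cap lay58 lay59 = true := by decide +kernel

theorem ok_lay59 : stepOKS rows cap lay59 lay60 = true := by decide +kernel

theorem ok_lay60 : stepOKS rows cap lay60 lay61 = true := by decide +kernel

theorem ok_lay61 : stepOKS rows cap lay61 lay62 = true := by decide +kernel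

theorem ok_lay62 : stepOKS rows cap lay62 lay63 = true := by decide +kernel

theorem ok_lay63 : stepOKS rows cap lay63 lay64 = true := by decide +kernel

theorem ok_lay64 : stepOKS rows cap lay64 lay65 = true := by decide +kernel

theorem ok_lay65 : stepOKS rows cap lay65 lay66 = true := by decide +kernel

theorem ok_lay66 : stepOKS rows cap lay66 lay67 = true := by decide +kernel

theorem ok_lay67 : stepOKS rows cap lay67 lay68 = true := by decide +kernel

theorem ok_lay68 : stepOKS rows cap lay68 lay69 = true := by decide +kernel

end Vale.Agent.Lib.P302.helper26.Th215
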