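import Mathlib
import Vale.Agent.Lib.P302.helper26.Th215.K0
import Vale.Agent.Lib.P302.helper26.Th215.K1
import Vale.Agent.Lib.P302.helper26.Th215.K2
import Vale.Agent.Lib.P302.helper26.Th215.K3
import Vale.Agent.Lib.P302.helper26.Th215.K4
import Vale.Agent.Lib.P302.helper26.Th215.K5
import Vale.Agent.Lib.P302.helper26.Th215.K6

/-!
# P302: the mask search of the 215-item instance, put together

No state of any layer can be split into triples of total size at most `cap`.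
-/

namespace Vale.Agent.Lib.P302.helper26.Th215

open Vale.Agent.Lib.P302.helper14 Vale.Agent.Lib.P302.helper8

theorem no69 : ∀ m ∈ lay69, ¬ TriPart cap (szs (sel rows m)) := nil_no rows cap

theorem no68 : ∀ m ∈ lay68, ¬ TriPart cap (szs (sel rows m)) :=
  stepOKS_sound rows_ok ok_lay68 no69

theorem no67 : ∀ m ∈ lay67, ¬ TriPart cap (szs (sel rows m)) :=
  stepOKS_sound rows_ok ok_lay67 no68

theorem no66 : ∀ m ∈ lay66, ¬ TriPart cap (szs (sel rows m)) :=
  stepOKS_sound rows_ok ok_lay66 no67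

theorem no65 : ∀ m ∈ lay65, ¬ TriPart cap (szs (sel rows m)) :=
  stepOKS_sound rows_ok ok_lay65 no66

theorem no64 : ∀ m ∈ lay64, ¬ TriPart cap (szs (sel rows m)) :=
  stepOKS_sound rows_ok ok_lay64 no65

theorem no63 : ∀ m ∈ lay63, ¬ TriPart cap (szs (sel rows m)) :=
  stepOKS_sound rows_ok ok_lay63 no64

theorem no62 : ∀ m ∈ lay62, ¬ TriPart cap (szs (sel rows m)) :=
  stepOKS_sound rows_ok ok_lay62 no63

theorem no61 : ∀ m ∈ lay61, ¬ TriPart cap (szs (sel rows m)) :=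
  stepOKS_sound rows_ok ok_lay61 no62

theorem no60 : ∀ m ∈ lay60, ¬ TriPart cap (szs (sel rows m)) :=
  stepOKS_sound rows_ok ok_lay60 no61

theorem no59 : ∀ m ∈ lay59, ¬ TriPart cap (szs (sel rows m)) :=
  stepOKS_sound rows_ok ok_lay59 no60

theorem no58 : ∀ m ∈ lay58, ¬ TriPart cap (szs (sel rows m)) :=
  stepOKS_sound rows_ok ok_lay58 no59

theorem no57 : ∀ m ∈ lay57, ¬ TriPart cap (szs (sel rows m)) :=
  stepOKS_sound rows_ok ok_lay57 no58

theorem no56 : ∀ m ∈ lay56, ¬ TriPart cap (szs (sel rows m)) :=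
  stepOKS_sound rows_ok ok_lay56 no57

theorem no55 : ∀ m ∈ lay55, ¬ TriPart cap (szs (sel rows m)) :=
  stepOKS_sound rows_ok ok_lay55 no56

theorem no54 : ∀ m ∈ lay54, ¬ TriPart cap (szs (sel rows m)) :=
  stepOKS_sound rows_ok ok_lay54 no55

theorem no53 : ∀ m ∈ lay53, ¬ TriPart cap (szs (sel rows m)) :=
  stepOKS_sound rows_ok ok_lay53 no54

theorem no52 : ∀ m ∈ lay52, ¬ TriPart cap (szs (sel rows m)) :=
  stepOKS_sound rows_ok ok_lay52 no53

theorem no51 : ∀ m ∈ lay51, ¬ TriPart cap (szs (sel rows m)) :=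
  stepOKS_sound rows_ok ok_lay51 no52

theorem no50 : ∀ m ∈ lay50, ¬ TriPart cap (szs (sel rows m)) :=
  stepOKS_sound rows_ok ok_lay50 no51

theorem no49 : ∀ m ∈ lay49, ¬ TriPart cap (szs (sel rows m)) :=
  stepOKS_sound rows_ok ok_lay49 no50

theorem no48 : ∀ m ∈ lay48, ¬ TriPart cap (szs (sel rows m)) :=
  stepOKS_sound rows_ok ok_lay48 no49

theorem no47 : ∀ m ∈ lay47, ¬ TriPart cap (szs (sel rows m)) :=
  stepOKS_sound rows_ok ok_lay47 no48

theorem no46 : ∀ m ∈ lay46, ¬ TriPart cap (szs (sel rows m)) :=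
  stepOKS_sound rows_ok ok_lay46 no47

theorem no45 : ∀ m ∈ lay45, ¬ TriPart cap (szs (sel rows m)) :=
  append_no (stepOKS_sound rows_ok ok_p45_0 no46)
    (stepOKS_sound rows_ok ok_p45_1 no46)

theorem no44 : ∀ m ∈ lay44, ¬ TriPart cap (szs (sel rows m)) :=
  append_no (stepOKS_sound rows_ok ok_p44_0 no45)
    (stepOKS_sound rows_ok ok_p44_1 no45)

theorem no43 : ∀ m ∈ lay43, ¬ TriPart cap (szs (sel rows m)) :=
  append_no (stepOKS_sound rows_ok ok_p43_0 no44)
    (stepOKS_sound rows_ok ok_p43_1 no44)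

theorem no42 : ∀ m ∈ lay42, ¬ TriPart cap (szs (sel rows m)) :=
  append_no (stepOKS_sound rows_ok ok_p42_0 no43)
    (stepOKS_sound rows_ok ok_p42_1 no43)

theorem no41 : ∀ m ∈ lay41, ¬ TriPart cap (szs (sel rows m)) :=
  append_no (stepOKS_sound rows_ok ok_p41_0 no42)
    (stepOKS_sound rows_ok ok_p41_1 no42)

theorem no40 : ∀ m ∈ lay40, ¬ TriPart cap (szs (sel rows m)) :=
  append_no (stepOKS_sound rows_ok ok_p40_0 no41)
    (stepOKS_sound rows_ok ok_p40_1 no41)

theorem no39 : ∀ m ∈ lay39, ¬ TriPart cap (szs (sel rows m)) :=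
  stepOKS_sound rows_ok ok_lay39 no40

theorem no38 : ∀ m ∈ lay38, ¬ TriPart cap (szs (sel rows m)) :=
  stepOKS_sound rows_ok ok_lay38 no39

theorem no37 : ∀ m ∈ lay37, ¬ TriPart cap (szs (sel rows m)) :=
  stepOKS_sound rows_ok ok_lay37 no38

theorem no36 : ∀ m ∈ lay36, ¬ TriPart cap (szs (sel rows m)) :=
  stepOKS_sound rows_ok ok_lay36 no37

theorem no35 : ∀ m ∈ lay35, ¬ TriPart cap (szs (sel rows m)) :=
  stepOKS_sound rows_ok ok_lay35 no36

theorem no34 : ∀ m ∈ lay34, ¬ TriPart cap (szs (sel rows m)) :=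
  stepOKS_sound rows_ok ok_lay34 no35

theorem no33 : ∀ m ∈ lay33, ¬ TriPart cap (szs (sel rows m)) :=
  stepOKS_sound rows_ok ok_lay33 no34

theorem no32 : ∀ m ∈ lay32, ¬ TriPart cap (szs (sel rows m)) :=
  stepOKS_sound rows_ok ok_lay32 no33

theorem no31 : ∀ m ∈ lay31, ¬ TriPart cap (szs (sel rows m)) :=
  stepOKS_sound rows_ok ok_lay31 no32

theorem no30 : ∀ m ∈ lay30, ¬ TriPart cap (szs (sel rows m)) :=
  stepOKS_sound rows_ok ok_lay30 no31

theorem no29 : ∀ m ∈ lay29, ¬ TriPart cap (szs (sel rows m)) :=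
  stepOKS_sound rows_ok ok_lay29 no30

theorem no28 : ∀ m ∈ lay28, ¬ TriPart cap (szs (sel rows m)) :=
  stepOKS_sound rows_ok ok_lay28 no29

theorem no27 : ∀ m ∈ lay27, ¬ TriPart cap (szs (sel rows m)) :=
  stepOKS_sound rows_ok ok_lay27 no28

theorem no26 : ∀ m ∈ lay26, ¬ TriPart cap (szs (sel rows m)) :=
  stepOKS_sound rows_ok ok_lay26 no27

theorem no25 : ∀ m ∈ lay25, ¬ TriPart cap (szs (sel rows m)) :=
  stepOKS_sound rows_ok ok_lay25 no26

theorem no24 : ∀ m ∈ lay24, ¬ TriPart cap (szs (sel rows m)) :=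
  stepOKS_sound rows_ok ok_lay24 no25

theorem no23 : ∀ m ∈ lay23, ¬ TriPart cap (szs (sel rows m)) :=
  stepOKS_sound rows_ok ok_lay23 no24

theorem no22 : ∀ m ∈ lay22, ¬ TriPart cap (szs (sel rows m)) :=
  stepOKS_sound rows_ok ok_lay22 no23

theorem no21 : ∀ m ∈ lay21, ¬ TriPart cap (szs (sel rows m)) :=
  stepOKS_sound rows_ok ok_lay21 no22

theorem no20 : ∀ m ∈ lay20, ¬ TriPart cap (szs (sel rows m)) :=
  append_no (stepOKS_sound rows_ok ok_p20_0 no21)
    (stepOKS_sound rows_ok ok_p20_1 no21)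

theorem no19 : ∀ m ∈ lay19, ¬ TriPart cap (szs (sel rows m)) :=
  append_no (stepOKS_sound rows_ok ok_p19_0 no20)
    (append_no (stepOKS_sound rows_ok ok_p19_1 no20)
    (stepOKS_sound rows_ok ok_p19_2 no20))

theorem no18 : ∀ m ∈ lay18, ¬ TriPart cap (szs (sel rows m)) :=
  append_no (stepOKS_sound rows_ok ok_p18_0 no19)
    (append_no (stepOKS_sound rows_ok ok_p18_1 no19)
    (stepOKS_sound rows_ok ok_p18_2 no19))

theorem no17 : ∀ m ∈ lay17, ¬ TriPart cap (szs (sel rows m)) :=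
  append_no (stepOKS_sound rows_ok ok_p17_0 no18)
    (append_no (stepOKS_sound rows_ok ok_p17_1 no18)
    (stepOKS_sound rows_ok ok_p17_2 no18))

theorem no16 : ∀ m ∈ lay16, ¬ TriPart cap (szs (sel rows m)) :=
  append_no (stepOKS_sound rows_ok ok_p16_0 no17)
    (append_no (stepOKS_sound rows_ok ok_p16_1 no17)
    (stepOKS_sound rows_ok ok_p16_2 no17))

theorem no15 : ∀ m ∈ lay15, ¬ TriPart cap (szs (sel rows m)) :=
  append_no (stepOKS_sound rows_ok ok_p15_0 no16)
    (append_no (stepOKS_sound rows_ok ok_p15_1 no16)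
    (stepOKS_sound rows_ok ok_p15_2 no16))

theorem no14 : ∀ m ∈ lay14, ¬ TriPart cap (szs (sel rows m)) :=
  append_no (stepOKS_sound rows_ok ok_p14_0 no15)
    (append_no (stepOKS_sound rows_ok ok_p14_1 no15)
    (stepOKS_sound rows_ok ok_p14_2 no15))

theorem no13 : ∀ m ∈ lay13, ¬ TriPart cap (szs (sel rows m)) :=
  append_no (stepOKS_sound rows_ok ok_p13_0 no14)
    (append_no (stepOKS_sound rows_ok ok_p13_1 no14)
    (append_no (stepOKS_sound rows_ok ok_p13_2 no14)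
    (stepOKS_sound rows_ok ok_p13_3 no14)))

theorem no12 : ∀ m ∈ lay12, ¬ TriPart cap (szs (sel rows m)) :=
  append_no (stepOKS_sound rows_ok ok_p12_0 no13)
    (append_no (stepOKS_sound rows_ok ok_p12_1 no13)
    (append_no (stepOKS_sound rows_ok ok_p12_2 no13)
    (append_no (stepOKS_sound rows_ok ok_p12_3 no13)
    (append_no (stepOKS_sound rows_ok ok_p12_4 no13)
    (stepOKS_sound rows_ok ok_p12_5 no13)))))

theorem no11 : ∀ m ∈ lay11, ¬ TriPart cap (szs (sel rows m)) :=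
  append_no (stepOKS_sound rows_ok ok_p11_0 no12)
    (append_no (stepOKS_sound rows_ok ok_p11_1 no12)
    (append_no (stepOKS_sound rows_ok ok_p11_2 no12)
    (append_no (stepOKS_sound rows_ok ok_p11_3 no12)
    (append_no (stepOKS_sound rows_ok ok_p11_4 no12)
    (append_no (stepOKS_sound rows_ok ok_p11_5 no12)
    (append_no (stepOKS_sound rows_ok ok_p11_6 no12)
    (append_no (stepOKS_sound rows_ok ok_p11_7 no12)
    (stepOKS_sound rows_ok ok_p11_8 no12))))))))

theorem no10 : ∀ m ∈ lay10, ¬ TriPart cap (szs (sel rows m)) :=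
  append_no (stepOKS_sound rows_ok ok_p10_0 no11)
    (append_no (stepOKS_sound rows_ok ok_p10_1 no11)
    (append_no (stepOKS_sound rows_ok ok_p10_2 no11)
    (append_no (stepOKS_sound rows_ok ok_p10_3 no11)
    (append_no (stepOKS_sound rows_ok ok_p10_4 no11)
    (append_no (stepOKS_sound rows_ok ok_p10_5 no11)
    (append_no (stepOKS_sound rows_ok ok_p10_6 no11)
    (append_no (stepOKS_sound rows_ok ok_p10_7 no11)
    (stepOKS_sound rows_ok ok_p10_8 no11))))))))

theorem no9 : ∀ m ∈ lay9, ¬ TriPart cap (szs (sel rows m)) :=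
  append_no (stepOKS_sound rows_ok ok_p9_0 no10)
    (append_no (stepOKS_sound rows_ok ok_p9_1 no10)
    (append_no (stepOKS_sound rows_ok ok_p9_2 no10)
    (append_no (stepOKS_sound rows_ok ok_p9_3 no10)
    (append_no (stepOKS_sound rows_ok ok_p9_4 no10)
    (append_no (stepOKS_sound rows_ok ok_p9_5 no10)
    (append_no (stepOKS_sound rows_ok ok_p9_6 no10)
    (append_no (stepOKS_sound rows_ok ok_p9_7 no10)
    (stepOKS_sound rows_ok ok_p9_8 no10))))))))

theorem no8 : ∀ m ∈ lay8, ¬ TriPart cap (szs (sel rows m)) :=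
  append_no (stepOKS_sound rows_ok ok_p8_0 no9)
    (append_no (stepOKS_sound rows_ok ok_p8_1 no9)
    (append_no (stepOKS_sound rows_ok ok_p8_2 no9)
    (append_no (stepOKS_sound rows_ok ok_p8_3 no9)
    (append_no (stepOKS_sound rows_ok ok_p8_4 no9)
    (append_no (stepOKS_sound rows_ok ok_p8_5 no9)
    (append_no (stepOKS_sound rows_ok ok_p8_6 no9)
    (stepOKS_sound rows_ok ok_p8_7 no9)))))))

theorem no7 : ∀ m ∈ lay7, ¬ TriPart cap (szs (sel rows m)) :=
  append_no (stepOKS_sound rows_ok ok_p7_0 no8)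
    (append_no (stepOKS_sound rows_ok ok_p7_1 no8)
    (append_no (stepOKS_sound rows_ok ok_p7_2 no8)
    (append_no (stepOKS_sound rows_ok ok_p7_3 no8)
    (append_no (stepOKS_sound rows_ok ok_p7_4 no8)
    (append_no (stepOKS_sound rows_ok ok_p7_5 no8)
    (append_no (stepOKS_sound rows_ok ok_p7_6 no8)
    (stepOKS_sound rows_ok ok_p7_7 no8)))))))

theorem no6 : ∀ m ∈ lay6, ¬ TriPart cap (szs (sel rows m)) :=
  append_no (stepOKS_sound rows_ok ok_p6_0 no7)
    (append_no (stepOKS_sound rows_ok ok_p6_1 no7)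
    (append_no (stepOKS_sound rows_ok ok_p6_2 no7)
    (append_no (stepOKS_sound rows_ok ok_p6_3 no7)
    (append_no (stepOKS_sound rows_ok ok_p6_4 no7)
    (stepOKS_sound rows_ok ok_p6_5 no7)))))

theorem no5 : ∀ m ∈ lay5, ¬ TriPart cap (szs (sel rows m)) :=
  append_no (stepOKS_sound rows_ok ok_p5_0 no6)
    (append_no (stepOKS_sound rows_ok ok_p5_1 no6)
    (append_no (stepOKS_sound rows_ok ok_p5_2 no6)
    (stepOKS_sound rows_ok ok_p5_3 no6)))

theorem no4 : ∀ m ∈ lay4, ¬ TriPart cap (szs (sel rows m)) :=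
  append_no (stepOKS_sound rows_ok ok_p4_0 no5)
    (stepOKS_sound rows_ok ok_p4_1 no5)

theorem no3 : ∀ m ∈ lay3, ¬ TriPart cap (szs (sel rows m)) :=
  stepOKS_sound rows_ok ok_lay3 no4

theorem no2 : ∀ m ∈ lay2, ¬ TriPart cap (szs (sel rows m)) :=
  stepOKS_sound rows_ok ok_lay2 no3

theorem no1 : ∀ m ∈ lay1, ¬ TriPart cap (szs (sel rows m)) :=
  stepOKS_sound rows_ok ok_lay1 no2

theorem no0 : ∀ m ∈ lay0, ¬ TriPart cap (szs (sel rows m)) :=
  stepOKS_sound rows_ok ok_lay0 no1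

end Vale.Agent.Lib.P302.helper26.Th215
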